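import Vale.Agent.P145.H821.Final

/-!
The height function of the self-dual Ashkin-Teller model converges to the Gaussian free field with
zero boundary values, divided by `π √g`: in law and with all moments, in all bounded Jordan domains,
in all bounded Carathéodory domains, and in multiply connected domains.
-/

open Vale.Agent.P145.JG Vale.Agent.P145.H821

/-- Let `(J, U)` be a point of the self-dual line, `t = (1 + e^{4U})^{-1/2}`,
`g = (8 / π) arcsin (√(1 + e^{4U}) / 2)` and `s = 1 / (π √g)`. Then

* for every bounded Jordan domain `D` and all lattice polygons of mesh tending to `0` approximating
  `D` the height function of the height representation in the polygons, tested against test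
  functions on `D`, converges in law to `s` times the Gaussian free field in `D` with zero boundary
  values and covariance `2π (-Δ_D)⁻¹` (the statement of the problem);
* the same holds for every bounded Carathéodory open set `D` (every boundary point of `D` is a limit
  of points of the unbounded component of the complement of the closure of `D`), a class which
  contains the bounded Jordan domains, and moreover the expectations of all continuous functions of
  polynomial growth of the tested heights (in particular all joint moments) converge;
* the same convergence, in law and of the expectations of all continuous functions of polynomial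
  growth, holds for the height functions with zero boundary values on arbitrary finite sets of faces
  approximating any `Regular` bounded open set, a class which contains all Carathéodory open sets
  and, with `D`, the set `D` without finitely many closures of connected open sets (so that it
  contains multiply connected domains). -/
theorem Vale.Agent.Results.P145.CaratheodoryMoments.result (J U : ℝ) (_hJ : 0 < J) (hUJ : U ≤ J)
    (hself : Real.sinh (2 * J) = Real.exp (-2 * U)) (t s : ℝ)
    (ht : t = 1 / √(1 + Real.exp (4 * U)))
    (hs : s = 1 / (Real.pi * √(8 / Real.pi * Real.arcsin (√(1 + Real.exp (4 * U)) / 2)))) :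
    (∀ D : Set (ℝ × ℝ), JordanDomain D → Conv t s D) ∧
    (∀ D : Set (ℝ × ℝ), JordanDomain D → Caratheodory D) ∧
    (∀ D : Set (ℝ × ℝ), Caratheodory D → Conv t s D ∧ PolyConv t s D) ∧
    (∀ D : Set (ℝ × ℝ), Caratheodory D → Regular D) ∧
    (∀ (D : Set (ℝ × ℝ)) (m : ℕ) (K : Fin m → Set (ℝ × ℝ)), Regular D → (∀ i, IsOpen (K i)) →
      (∀ i, IsConnected (K i)) → Regular (D \ ⋃ i, closure (K i))) ∧
    (∀ D : Set (ℝ × ℝ), Regular D → HeightConv t s D) := by
  subst ht hs
  exact ⟨fun D hD => jordan_full hUJ hself D hD, fun D hD => caratheodory_of_jordan hD,
    fun D hD => car_full hUJ hself D hD, fun D hD => hD.regular,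
    fun D m K hD h1 h2 => hD.diff h1 h2, fun D hD => regular_full hUJ hself D hD⟩
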