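import Vale.Agent.P145.H8.Fin

/-!
The height function of the self-dual Ashkin-Teller model: bounded Jordan domains, Carathéodory
sets, and the sharp criterion for arbitrary bounded open sets.
-/

open MeasureTheory Vale.Agent.P145.JG Vale.Agent.P145.H8
open Vale.Agent.P145.H88 (Carath MomConv)

/-- Let `(J, U)` be a point of the self-dual line, `t = (1 + e^{4U})^{-1/2}`,
`g = (8 / π) arcsin (√(1 + e^{4U}) / 2)` and `s = 1 / (π √g)`.
* For every bounded Jordan domain `D` and all lattice polygons of mesh tending to `0`
  approximating `D` the height function of the height representation with parameter `t` in the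
  polygons, tested against test functions on `D`, converges in law to `s` times the Gaussian free
  field in `D` with zero boundary values and covariance `2π (-Δ_D)⁻¹`.
* The same holds, with all moments, for all Carathéodory sets `D` (bounded open sets all of whose
  boundary points are limits of points joined to infinity outside the closure); Jordan domains are
  Carathéodory sets.
* For every bounded open set `D` and the zero boundary height functions on arbitrary finite sets of
  faces approximating `D`, convergence in law for all approximations, convergence of all moments for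
  all approximations, and the outer stability of the Dirichlet form of `D` are equivalent; if the
  boundary has area zero, the test functions do not have to vanish near the boundary.
* Carathéodory sets are stable, and so are the interiors of closed sets with finitely connected
  complement.
* The zero boundary height functions have a law (there are finitely many of them and the total mass
  is one), and it is the law of the height function of the height representation if the faces are
  those enclosed by a polygon; polygons approximating an open set with connected exterior enclose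
  sets of faces approximating it. -/
theorem Vale.Agent.Results.P145.GeneralDomains.result (J U : ℝ) (_hJ : 0 < J) (hUJ : U ≤ J)
    (hself : Real.sinh (2 * J) = Real.exp (-2 * U)) (t s : ℝ)
    (ht : t = 1 / √(1 + Real.exp (4 * U)))
    (hs : s = 1 / (Real.pi * √(8 / Real.pi * Real.arcsin (√(1 + Real.exp (4 * U)) / 2)))) :
    (∀ D : Set (ℝ × ℝ), JordanDomain D → Conv t s D) ∧
    (∀ D : Set (ℝ × ℝ), Carath D → Conv t s D ∧ MomConv t s D) ∧
    (∀ D : Set (ℝ × ℝ), JordanDomain D → Carath D) ∧
    (∀ D : Set (ℝ × ℝ), IsOpen D → Bornology.IsBounded D → ∀ T : (ℝ × ℝ → ℝ) → Prop,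
      T = TestOn D ∨ volume (frontier D) = 0 ∧ T = TestOn Set.univ →
      (LawF t s D T ↔ Stable D) ∧ (MomF t s D T ↔ Stable D)) ∧
    (∀ D : Set (ℝ × ℝ), Carath D ∨ Regular D ∧ FinConn D → Stable D) ∧
    (∀ F : Finset (ℤ × ℤ), (Heights F).Finite ∧ hE t F (fun _ => 1) = 1) ∧
    (∀ (n : ℕ) (p : ZMod n → ℤ × ℤ) (F : Finset (ℤ × ℤ)), IsPolygon p → Encloses p F →
      ∀ H : Conf → Site → ℝ, (∀ᵐ σ ∂law t p F, IsHt p F σ (H σ)) →
      ∀ Φ : (Site → ℝ) → ℝ, ∫ σ, Φ (res F (H σ)) ∂law t p F = hE t F Φ) ∧
    (∀ D : Set (ℝ × ℝ), IsOpen D → Bornology.IsBounded D → IsPreconnected (closure D)ᶜ →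
      ∀ (δ : ℕ → ℝ) (N : ℕ → ℕ) (p : ∀ n, ZMod (N n) → ℤ × ℤ) (F : ℕ → Finset (ℤ × ℤ)),
        Approx D δ N p F → ApproxF D δ F) := by
  have ht0 : 0 < t := by rw [ht]; positivity
  have hins := ins_U hUJ hself hs
  have hti : (√(1 + Real.exp (4 * U)))⁻¹ = t := by rw [ht, one_div]
  refine ⟨fun D hD => ?_, fun D hD => ?_, fun D hD => Vale.Agent.P145.H88.carath_jordan hD,
    fun D hop hb T hT => ?_, fun D h => stable_of h, fun F => heights_fin ht0 F,
    fun n p F hp hF H hH Φ => law_hE ht0 hp hF hH Φ,
    fun D hop hb hext δ N p F h => approxF_of_poly hop hb hext (approx_dom h)⟩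
  · rw [ht, hs]
    exact jordan_full hUJ hself D hD
  · rw [ht, hs]
    exact Vale.Agent.P145.H88.carath_full hUJ hself D hD
  · rw [← hti]
    exact iffs hins hop hb T hT
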