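import Vale.Agent.P145.Bdl.FC
import Vale.Agent.P145.SV.Main

/-!
The height function of the self-dual Ashkin-Teller model: convergence to the Gaussian free field in
all bounded Jordan domains, and on the full plane together with the exact logarithmic growth of the
variance of the height differences.
-/

open Filter Topology MeasureTheory ProbabilityTheory

/-- Let `(J, U)` be a point of the self-dual line, `t = (1 + e^{4U})^{-1/2}`,
`g = (8 / π) arcsin (√(1 + e^{4U}) / 2)` and `s = 1 / (π √g)`.
(1) For every bounded Jordan domain `D` and all lattice polygons of mesh tending to `0`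
approximating `D` the height function of the height representation with parameter `t` in the
polygons converges in law to `s` times the Gaussian free field in `D` with zero boundary values.
(2) There is an infinite-volume Gibbs measure `Q` of the height representation, invariant under
translations and under the flip of all `τ` and the flip of all `τ†`, such that the height function
exists a.s. and, normalised by `H(0) = 0`, converges in law to `s` times the Gaussian free field on
the plane modulo constants; the height differences have mean zero, and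
`Var(H(x) - H(y)) / log |x - y|` converges to `2 s² = 2 / (π² g)` as `|x - y| → ∞`, uniformly over
all pairs of sites (vertices or faces). -/
theorem Vale.Agent.Results.P145.SharpVariance.result (J U : ℝ) (_hJ : 0 < J) (hUJ : U ≤ J)
    (hself : Real.sinh (2 * J) = Real.exp (-2 * U)) :
    ∃ s : ℝ, s = 1 / (Real.pi * √(8 / Real.pi * Real.arcsin (√(1 + Real.exp (4 * U)) / 2))) ∧
    (∀ D : Set (ℝ × ℝ), Vale.Agent.P145.JG.JordanDomain D →
      Vale.Agent.P145.JG.Conv (1 / √(1 + Real.exp (4 * U))) s D) ∧
    ∃ Q : Measure Vale.Agent.P145.FP.Conf, ∃ _ : IsProbabilityMeasure Q,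
      Vale.Agent.P145.FP.Gibbs (1 / √(1 + Real.exp (4 * U))) Q ∧
      (∀ a : ℤ × ℤ, Q.map (Vale.Agent.P145.FP.tr a) = Q) ∧
      Q.map Vale.Agent.P145.FP.flipV = Q ∧ Q.map Vale.Agent.P145.FP.flipF = Q ∧
      (∀ᵐ σ ∂Q, ∃ H, Vale.Agent.P145.FP.IsHeight σ H) ∧
      ∀ H : Vale.Agent.P145.FP.Conf → Vale.Agent.P145.FP.Site → ℝ,
      (∀ᵐ σ ∂Q, Vale.Agent.P145.FP.IsHeight σ (H σ) ∧ H σ (Sum.inl 0) = 0) →
      (∀ (m : ℕ) (φ : Fin m → ℝ × ℝ → ℝ), (∀ j, Vale.Agent.P145.FP.Test (φ j)) →
        (Matrix.of (fun i j =>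
          s ^ 2 * (2 * Real.pi * Vale.Agent.P145.FP.gffCov (φ i) (φ j)))).PosSemidef ∧
        TendstoInDistribution (fun (δ : ℝ) (σ : Vale.Agent.P145.FP.Conf) =>
          (WithLp.toLp 2 (fun j => Vale.Agent.P145.FP.fld (H σ) δ (φ j)) :
            EuclideanSpace ℝ (Fin m))) (𝓝[>] 0)
          (id : EuclideanSpace ℝ (Fin m) → EuclideanSpace ℝ (Fin m)) (fun _ => Q)
          (multivariateGaussian 0
            (Matrix.of (fun i j =>
              s ^ 2 * (2 * Real.pi * Vale.Agent.P145.FP.gffCov (φ i) (φ j)))))) ∧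
      (∀ x y, ∫ σ, (H σ x - H σ y) ∂Q = 0) ∧
      ∀ ε : ℝ, 0 < ε → ∃ R : ℝ, ∀ x y, R ≤ Vale.Agent.P145.SV.eD x y →
        |variance (fun σ => H σ x - H σ y) Q / Real.log (Vale.Agent.P145.SV.eD x y) -
          2 * s ^ 2| ≤ ε := by
  have h1 : 0 < √(1 + Real.exp (4 * U)) := by positivity
  obtain ⟨Q, a0, a1, a2, a3, a4, a5, s, hs, a6⟩ := Vale.Agent.P145.SV.main_t
    (t := 1 / √(1 + Real.exp (4 * U))) (by positivity) (by
      rw [one_div_one_div, Real.sqrt_le_left (by norm_num)]
      linarith [Vale.Agent.P145.FP.exp_le_three hUJ hself])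
  rw [one_div_one_div] at hs
  refine ⟨s, hs, fun D hD => ?_, Q, a0, a1, a2, a3, a4, a5, a6⟩
  rw [hs]
  exact Vale.Agent.P145.JG.jordan_full hUJ hself D hD
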